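import Vale.Agent.P216.Ch2.Ns2
import Vale.Agent.P216.Ch2.D246.Defs

/-!
# P216-D, block [TOP0]

The (Alexander-Spanier) cohomology of a compact subset of `ℝ^n` vanishes in the degrees `≥ n`
(and `≥ 1`).
-/

open Set Matrix

namespace Vale.Agent.P216.Ch2.H670.Top0

open Vale.Agent.P216.AS Vale.Agent.P216.Ch2.AS Vale.Agent.P216.H901 Vale.Agent.P216.Ch2.H901 Vale.Agent.P216.H83 Vale.Agent.P216.Ch2.H83 Vale.Agent.P216.H133C Vale.Agent.P216.Ch2.H133C

section Gen

variable {E : Type} [MetricSpace E] {k : Type} [Field k]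

omit [MetricSpace E] in
theorem eqv_tr {n : ℕ} {X : Set E} (c : (Fin n → E) → k) : Eqv (tr E) (on k) X c :=
  fun i => i.elim

/-- A cochain which is a cocycle on all the tuples of a small set is a coboundary there. -/
theorem small {A B : Set E} {n : ℕ} {f : (Fin (n + 2) → E) → k} {ε : ℝ} (hε : 0 < ε)
    (hf : ∀ x, Sm A ε x → P265.AS.d f x = 0) (hB : B ⊆ A)
    (hd : ∀ x ∈ B, ∀ y ∈ B, dist x y < ε) :
    f ∈ Bc (Zr (tr E) (on k) B ∅) (Zr (tr E) (on k) B B) (n + 1) := by
  rcases B.eq_empty_or_nonempty with rfl | ⟨a, ha⟩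
  · refine mem_Bc_succ.2 ⟨0, ⟨eqv_tr _, van_zero⟩, ⟨eqv_tr _, 1, one_pos, fun x hx => ?_⟩⟩
    exact absurd (hx.1 0) (notMem_empty _)
  · refine mem_Bc_succ.2 ⟨fun y => f (vecCons a y), ⟨eqv_tr _, 1, one_pos, fun x hx =>
      absurd (hx.1 0) (notMem_empty _)⟩, ⟨eqv_tr _, ε, hε, fun x hx => ?_⟩⟩
    have h1 := P265.AS.d_cons f a x
    have h2 : P265.AS.d f (vecCons a x) = 0 := by
      apply hf
      have hm : ∀ i, (vecCons a x : Fin (n + 3) → E) i ∈ B := by
        intro i
        refine Fin.cases ?_ (fun j => ?_) i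
        · exact ha
        · exact hx.1 j
      exact ⟨fun i => hB (hm i), fun i j => hd _ (hm i) _ (hm j)⟩
    rw [h2] at h1
    exact h1.symm

/-- Mayer-Vietoris. -/
theorem glue (h2 : Ok k) {X C D : Set E} (hC : IsCompact C) (hD : IsCompact D)
    (hX : X = C ∪ D) (hCX : C ⊆ X) (hDX : D ⊆ X) (q : ℕ)
    (hw : ∀ w : Hr (tr E) (on k) (D ∩ C) ∅ q, lesD k C (D ∩ C) q w = 0)
    (x : Hr (tr E) (on k) X ∅ (q + 1)) (hxC : lesB k hCX (q + 1) x = 0)
    (hxD : lesB k hDX (q + 1) x = 0) : x = 0 := by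
  obtain ⟨y, rfl⟩ := (les_ex1 k hDX (q + 1) x).1 hxD
  have hN : D ∩ C ⊆ D := inter_subset_left
  have hb := strong_excision (k := k) (χ := on k) (tw_tr h2 X) hD hC (inv_tr _)
    (inv_tr _) (by rw [hX, union_comm]) rfl hCX hN (q + 1)
  have h1 : lesA k C (D ∩ C) (q + 1) (resR hCX hN (q + 1) y) = 0 := by
    rw [← lesA_nat]
    exact hxC
  obtain ⟨w, hw'⟩ := (les_ex3 k (inter_subset_right : D ∩ C ⊆ C) q _).1 h1
  have h3 : resR hCX hN (q + 1) y = 0 := by rw [← hw', hw w]
  have h4 : y = 0 := hb.1 (by rw [h3, map_zero])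
  rw [h4, map_zero]

theorem lesD_zero_of_noH {C N : Set E} {q : ℕ} (h : NoH k N ∅ q) (w : Hr (tr E) (on k) N ∅ q) :
    lesD k C N q w = 0 := by rw [h w, map_zero]

theorem lesD_zero_of_subsingleton {C N : Set E} (hN : N ⊆ C) (hs : N.Subsingleton)
    (w : Hr (tr E) (on k) N ∅ 0) : lesD k C N 0 w = 0 := by
  refine (les_ex2 k hN 0 w).2 ?_
  obtain ⟨g, hg, rfl⟩ := H.exists_mk w
  rcases N.eq_empty_or_nonempty with rfl | ⟨p, hp⟩
  · refine ⟨0, ?_⟩
    rw [map_zero]
    symm
    rw [H.mk_eq_zero, mem_Bc_zero]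
    exact ⟨eqv_tr _, 1, one_pos, fun x hx => absurd (hx.1 0) (notMem_empty _)⟩
  · have hc : (fun _ => g (fun _ => p) : (Fin 1 → E) → k) ∈
        Zc (Zr (tr E) (on k) C ∅) (Zr (tr E) (on k) C C) 0 := by
      refine mem_Zc_rel.2 ⟨eqv_tr _, ⟨1, one_pos, fun x hx => absurd (hx.1 0) (notMem_empty _)⟩,
        1, one_pos, fun x _ => ?_⟩
      simp [P265.AS.d_succ_apply, P265.AS.d_zero_apply]
    refine ⟨H.mk _ hc, ?_⟩
    have hc' : (fun _ => g (fun _ => p) : (Fin 1 → E) → k) ∈
        Zc (Zr (tr E) (on k) N ∅) (Zr (tr E) (on k) N N) 0 :=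
      Zc_mono (Zr_anti hN le_rfl) (Zr_anti hN hN) 0 hc
    have e1 : lesB k hN 0 (H.mk _ hc) = H.mk _ hc' := rfl
    rw [e1, H.mk_eq_mk, mem_Bc_zero]
    refine ⟨eqv_tr _, 1, one_pos, fun x hx => ?_⟩
    have : x = fun _ => p := funext fun i => hs (hx.1 i) hp
    rw [this]
    exact sub_self _

end Gen

/-- only the coordinates of `S` are free on `A` -/
def Fr {n : ℕ} (S : Finset (Fin n)) (A : Set (Fin n → ℝ)) : Prop :=
  ∀ x ∈ A, ∀ y ∈ A, ∀ i, i ∉ S → x i = y i

/-- thin outside the coordinates of `T` -/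
def Thin {n : ℕ} (δ : ℝ) (T : Finset (Fin n)) (A : Set (Fin n → ℝ)) : Prop :=
  ∀ x ∈ A, ∀ y ∈ A, ∀ i, i ∉ T → dist (x i) (y i) ≤ δ

variable {k : Type} [Field k]

theorem step {n : ℕ} (h2 : Ok k) {m : ℕ} (ih : ∀ (S : Finset (Fin n)), S.card ≤ m →
    ∀ A, IsCompact A → Fr S A → ∀ q, m ≤ q → 1 ≤ q → NoH k A ∅ q)
    {S : Finset (Fin n)} (hS : S.card ≤ m + 1) {A : Set (Fin n → ℝ)}
    (hFA : Fr S A) {q : ℕ} (hq : m ≤ q) {f : (Fin (q + 2) → (Fin n → ℝ)) → k}
    {ε : ℝ} (hε : 0 < ε) (hf : ∀ x, Sm A ε x → P265.AS.d f x = 0)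
    (T : Finset (Fin n)) : T ⊆ S → ∀ B ⊆ A, IsCompact B → Thin (ε / 2) T B →
    f ∈ Bc (Zr (tr _) (on k) B ∅) (Zr (tr _) (on k) B B) (q + 1) := by
  induction T using Finset.induction_on with
  | empty =>
    intro _ B hB _ hT
    refine small hε hf hB fun x hx y hy => ?_
    have : dist x y ≤ ε / 2 := (dist_pi_le_iff (by positivity)).2 fun i =>
      hT x hx y hy i (Finset.notMem_empty i)
    linarith
  | insert i T hiT ihT =>
    intro hTS B hB cB hT
    have hiS : i ∈ S := hTS (Finset.mem_insert_self i T)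
    have hTS' : T ⊆ S := (Finset.subset_insert i T).trans hTS
    obtain ⟨a, ha⟩ : ∃ a, ∀ x ∈ B, a ≤ x i := by
      obtain ⟨a, ha⟩ := (cB.image (continuous_apply i)).bddBelow
      exact ⟨a, fun x hx => ha (mem_image_of_mem _ hx)⟩
    obtain ⟨b, hb⟩ : ∃ b, ∀ x ∈ B, x i ≤ b := by
      obtain ⟨a, ha⟩ := (cB.image (continuous_apply i)).bddAbove
      exact ⟨a, fun x hx => ha (mem_image_of_mem _ hx)⟩
    have key : ∀ j : ℕ, f ∈ Bc (Zr (tr _) (on k) (B ∩ {x | x i ≤ a + j * (ε / 2)}) ∅)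
        (Zr (tr _) (on k) (B ∩ {x | x i ≤ a + j * (ε / 2)})
          (B ∩ {x | x i ≤ a + j * (ε / 2)})) (q + 1) := by
      intro j
      induction j with
      | zero =>
        refine ihT hTS' _ (inter_subset_left.trans hB)
          (cB.inter_right (isClosed_le (continuous_apply i) continuous_const)) ?_
        rintro x ⟨hx, hx'⟩ y ⟨hy, hy'⟩ l hl
        by_cases hli : l = i
        · subst hli
          have e1 : x l ≤ a := by simpa using hx'
          have e2 : y l ≤ a := by simpa using hy'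
          have e3 : x l = y l := le_antisymm (e1.trans (ha y hy)) (e2.trans (ha x hx))
          rw [e3, dist_self]
          positivity
        · exact hT x hx y hy l (by simp [hli, hl])
      | succ j ihj =>
        set c : ℝ := a + j * (ε / 2) with hc
        have hc' : a + ((j + 1 : ℕ) : ℝ) * (ε / 2) = c + ε / 2 := by push_cast; ring
        rw [hc']
        have cC : IsCompact (B ∩ {x | x i ≤ c}) :=
          cB.inter_right (isClosed_le (continuous_apply i) continuous_const)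
        have cD : IsCompact (B ∩ {x | c ≤ x i ∧ x i ≤ c + ε / 2}) :=
          cB.inter_right ((isClosed_le continuous_const (continuous_apply i)).inter
            (isClosed_le (continuous_apply i) continuous_const))
        have cX : IsCompact (B ∩ {x | x i ≤ c + ε / 2}) :=
          cB.inter_right (isClosed_le (continuous_apply i) continuous_const)
        have hD : f ∈ Bc (Zr (tr _) (on k) (B ∩ {x | c ≤ x i ∧ x i ≤ c + ε / 2}) ∅)
            (Zr (tr _) (on k) (B ∩ {x | c ≤ x i ∧ x i ≤ c + ε / 2})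
              (B ∩ {x | c ≤ x i ∧ x i ≤ c + ε / 2})) (q + 1) := by
          refine ihT hTS' _ (inter_subset_left.trans hB) cD ?_
          rintro x ⟨hx, hx'⟩ y ⟨hy, hy'⟩ l hl
          by_cases hli : l = i
          · subst hli
            rw [Real.dist_eq, abs_le]
            constructor <;> linarith [hx'.1, hx'.2, hy'.1, hy'.2]
          · exact hT x hx y hy l (by simp [hli, hl])
        have hX : B ∩ {x | x i ≤ c + ε / 2} =
            (B ∩ {x | x i ≤ c}) ∪ (B ∩ {x | c ≤ x i ∧ x i ≤ c + ε / 2}) := by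
          ext x
          constructor
          · rintro ⟨hx, hx'⟩
            rcases le_total (x i) c with h | h
            · exact Or.inl ⟨hx, h⟩
            · exact Or.inr ⟨hx, h, hx'⟩
          · rintro (⟨hx, hx'⟩ | ⟨hx, hx'⟩)
            · exact ⟨hx, le_trans (show x i ≤ c from hx') (by linarith)⟩
            · exact ⟨hx, hx'.2⟩
        have hCX : B ∩ {x | x i ≤ c} ⊆ B ∩ {x | x i ≤ c + ε / 2} := hX ▸ subset_union_left
        have hDX : B ∩ {x | c ≤ x i ∧ x i ≤ c + ε / 2} ⊆ B ∩ {x | x i ≤ c + ε / 2} :=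
          hX ▸ subset_union_right
        -- the intersection
        have hI : Fr (S.erase i) ((B ∩ {x | c ≤ x i ∧ x i ≤ c + ε / 2}) ∩ (B ∩ {x | x i ≤ c})) := by
          rintro x ⟨⟨hx, hx1⟩, -, hx2⟩ y ⟨⟨hy, hy1⟩, -, hy2⟩ l hl
          by_cases hli : l = i
          · subst hli
            have e1 : x l = c := le_antisymm hx2 hx1.1
            have e2 : y l = c := le_antisymm hy2 hy1.1
            rw [e1, e2]
          · exact hFA x (hB hx) y (hB hy) l fun h => hl (Finset.mem_erase.2 ⟨hli, h⟩)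
        have hcard : (S.erase i).card ≤ m := by
          rw [Finset.card_erase_of_mem hiS]
          omega
        have hw : ∀ w : Hr (tr _) (on k)
            ((B ∩ {x | c ≤ x i ∧ x i ≤ c + ε / 2}) ∩ (B ∩ {x | x i ≤ c})) ∅ q,
            lesD k (B ∩ {x | x i ≤ c})
              ((B ∩ {x | c ≤ x i ∧ x i ≤ c + ε / 2}) ∩ (B ∩ {x | x i ≤ c})) q w = 0 := by
          rcases Nat.eq_zero_or_pos q with h0 | h0
          · subst h0
            have hm : m = 0 := by omega
            subst hm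
            have hS0 : S.erase i = ∅ := Finset.card_eq_zero.1 (by omega)
            refine lesD_zero_of_subsingleton inter_subset_right fun x hx y hy => ?_
            funext l
            exact hI x hx y hy l (by rw [hS0]; exact Finset.notMem_empty l)
          · exact fun w => lesD_zero_of_noH (ih _ hcard _ (cD.inter cC) hI q hq h0) w
        have hz : f ∈ Zc (Zr (tr _) (on k) (B ∩ {x | x i ≤ c + ε / 2}) ∅)
            (Zr (tr _) (on k) (B ∩ {x | x i ≤ c + ε / 2}) (B ∩ {x | x i ≤ c + ε / 2})) (q + 1) := by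
          refine mem_Zc_rel.2 ⟨eqv_tr _, ⟨1, one_pos, fun x hx => absurd (hx.1 0)
            (notMem_empty _)⟩, ε, hε, fun x hx => hf x ?_⟩
          exact hx.mono (inter_subset_left.trans hB) le_rfl
        have hg := glue h2 cC cD hX hCX hDX q hw (H.mk f hz)
          (by
            have e : lesB k hCX (q + 1) (H.mk f hz) =
              H.mk f (Zc_mono (Zr_anti hCX le_rfl) (Zr_anti hCX hCX) _ hz) := rfl
            rw [e, H.mk_eq_zero]
            exact ihj)
          (by
            have e : lesB k hDX (q + 1) (H.mk f hz) =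
              H.mk f (Zc_mono (Zr_anti hDX le_rfl) (Zr_anti hDX hDX) _ hz) := rfl
            rw [e, H.mk_eq_zero]
            exact hD)
        exact H.mk_eq_zero.1 hg
    obtain ⟨j, hj⟩ := exists_nat_gt ((b - a) / (ε / 2))
    have hj' : b ≤ a + j * (ε / 2) := by
      have := (div_lt_iff₀ (by positivity : 0 < ε / 2)).1 hj
      linarith
    have hBj : B ∩ {x | x i ≤ a + j * (ε / 2)} = B :=
      inter_eq_left.2 fun x hx => (hb x hx).trans hj'
    have := key j
    rwa [hBj] at this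

theorem main {n : ℕ} (h2 : Ok k) (m : ℕ) : ∀ (S : Finset (Fin n)), S.card ≤ m →
    ∀ A, IsCompact A → Fr S A → ∀ q, m ≤ q → 1 ≤ q → NoH k A ∅ q := by
  induction m with
  | zero =>
    intro S hS A _ hF q _ hq z
    obtain ⟨q, rfl⟩ : ∃ q', q = q' + 1 := ⟨q - 1, by omega⟩
    obtain ⟨f, hf, rfl⟩ := H.exists_mk z
    obtain ⟨-, -, ε, hε, h⟩ := mem_Zc_rel.1 hf
    rw [H.mk_eq_zero]
    refine small hε h subset_rfl fun x hx y hy => ?_
    have hS0 : S = ∅ := Finset.card_eq_zero.1 (by omega)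
    have : x = y := funext fun l => hF x hx y hy l (by rw [hS0]; exact Finset.notMem_empty l)
    rw [this, dist_self]
    exact hε
  | succ m ih =>
    intro S hS A cA hF q hm hq z
    obtain ⟨q, rfl⟩ : ∃ q', q = q' + 1 := ⟨q - 1, by omega⟩
    obtain ⟨f, hf, rfl⟩ := H.exists_mk z
    obtain ⟨-, -, ε, hε, h⟩ := mem_Zc_rel.1 hf
    rw [H.mk_eq_zero]
    refine step h2 ih hS hF (by omega) hε h S subset_rfl A subset_rfl cA ?_
    intro x hx y hy i hi
    rw [hF x hx y hy i hi, dist_self]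
    positivity

/-- **[TOP0]** -/
theorem top0Goal : D246.Top0Goal := by
  intro k _ h2 n A hA q hq h1
  refine main h2 n Finset.univ (by simp) A hA ?_ q hq h1
  intro x _ y _ i hi
  exact absurd (Finset.mem_univ i) hi

end Vale.Agent.P216.Ch2.H670.Top0
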